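import Vale.Agent.Lib.P190.Defs
import Vale.Agent.Lib.P190.SmallCM

/-!
# P190: small Cohen–Macaulay modules realised on `A ^ r`

`A` is a regular local ring with regular system of parameters `y_0, …, y_{d-1}, z`, and `R` is a
local domain, module-finite over `A` (by Cohen's structure theorem every complete local domain is
of this form).  If some commutative local ring `S`, finite over `R` with `A → S` injective (for
example `S = R`), has depth at least `dim - 1` and type at most one, then `R` acts `A`-linearly on
a nonzero free module `A ^ r`, and with this action `A ^ r` is a small Cohen–Macaulay `R`-module.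
-/

namespace Vale.Agent.Results.P190.MatrixModel

open IsLocalRing RingTheory.Sequence Vale.Agent.P190

universe u

theorem take_ofFn {A S : Type u} [CommRing A] [CommRing S] [Algebra A S] {d : ℕ} (y : Fin d → A)
    (i : Fin d) : Ideal.ofList (((List.ofFn y).take i).map (algebraMap A S)) =
      Ideal.span {x : S | ∃ j : Fin d, j < i ∧ algebraMap A S (y j) = x} := by
  unfold Ideal.ofList
  congr 1
  ext x
  simp only [Set.mem_ofPred_eq, List.mem_map]
  constructor
  · rintro ⟨a, ha, rfl⟩
    obtain ⟨k, hk, rfl⟩ := List.getElem_of_mem ha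
    rw [List.length_take, List.length_ofFn] at hk
    have hk1 : k < i := lt_of_lt_of_le hk (min_le_left _ _)
    have hk2 : k < d := lt_of_lt_of_le hk (min_le_right _ _)
    refine ⟨⟨k, hk2⟩, hk1, ?_⟩
    rw [List.getElem_take, List.getElem_ofFn]
  · rintro ⟨j, hj, rfl⟩
    refine ⟨y j, ?_, rfl⟩
    have h1 : (j : ℕ) < ((List.ofFn y).take i).length := by
      rw [List.length_take, List.length_ofFn]
      exact lt_min hj j.2
    have h2 : ((List.ofFn y).take i)[(j : ℕ)] = y j := by
      rw [List.getElem_take, List.getElem_ofFn]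
    rw [← h2]
    exact List.getElem_mem h1

theorem ofFn_full {A S : Type u} [CommRing A] [CommRing S] [Algebra A S] {d : ℕ} (y : Fin d → A) :
    Ideal.ofList ((List.ofFn y).map (algebraMap A S)) =
      Ideal.span (Set.range fun j => algebraMap A S (y j)) := by
  unfold Ideal.ofList
  congr 1
  ext x
  simp only [Set.mem_ofPred_eq, List.mem_map, List.mem_ofFn, Set.mem_range]
  constructor
  · rintro ⟨a, ⟨j, rfl⟩, rfl⟩
    exact ⟨j, rfl⟩
  · rintro ⟨j, rfl⟩
    exact ⟨y j, ⟨j, rfl⟩, rfl⟩

theorem weaklyRegular_ofFn {A S : Type u} [CommRing A] [CommRing S] [Algebra A S] {d : ℕ}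
    (y : Fin d → A)
    (h : ∀ i : Fin d, ∀ s : S,
      algebraMap A S (y i) * s ∈ Ideal.span {x : S | ∃ j : Fin d, j < i ∧ algebraMap A S (y j) = x} →
        s ∈ Ideal.span {x : S | ∃ j : Fin d, j < i ∧ algebraMap A S (y j) = x}) :
    IsWeaklyRegular S (List.ofFn y) := by
  rw [isWeaklyRegular_iff_Fin]
  intro i
  have hi : (i : ℕ) < d := i.2.trans_eq List.length_ofFn
  rw [isSMulRegular_quotient_iff_mem_of_smul_mem]
  intro x hx
  rw [mem_smul_top_iff] at hx ⊢
  have h1 := take_ofFn (S := S) y ⟨i, hi⟩
  simp only at h1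
  rw [h1] at hx ⊢
  refine h ⟨i, hi⟩ x ?_
  have h2 : (List.ofFn y)[i] = y ⟨i, hi⟩ := by
    change (List.ofFn y)[(i : ℕ)] = _
    rw [List.getElem_ofFn]
  rw [h2, Algebra.smul_def] at hx
  exact hx

theorem algebra_map_self {A : Type u} [CommRing A] (a : A) : algebraMap A A a = a := rfl

/-- the action of `R` on `A ^ r` given by `A`-linear maps -/
abbrev actionModule {A R : Type u} [CommRing A] [CommRing R] [Algebra A R] {r : ℕ}
    (ρ : R →ₐ[A] Module.End A (Fin r → A)) : Module R (Fin r → A) :=
  Module.compHom (Fin r → A) (ρ : R →+* Module.End A (Fin r → A))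

theorem model_of_module {A R : Type u}
    [CommRing A] [IsDomain A] [IsLocalRing A] [IsNoetherianRing A]
    [CommRing R] [IsDomain R] [IsLocalRing R] [Algebra A R] [Module.Finite A R] {rs : List A}
    (hmax : Ideal.ofList rs = maximalIdeal A) (hreg : IsWeaklyRegular A rs)
    (N : Type u) [AddCommGroup N] [Module A N] [Module R N] [IsScalarTower A R N]
    [Module.Finite A N] [Module.Projective A N] [Nontrivial N] :
    ∃ (r : ℕ) (ρ : R →ₐ[A] Module.End A (Fin r → A)), 0 < r ∧
      letI := actionModule ρ
      Module.Finite R (Fin r → A) ∧ ∃ xs : List R, (∀ x ∈ xs, x ∈ maximalIdeal R) ∧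
        (xs.length : WithBot ℕ∞) = ringKrullDim R ∧ IsRegular (Fin r → A) xs := by
  have hfree : Module.Free A N := Module.free_of_flat_of_isLocalRing
  have e : N ≃ₗ[A] (Fin (Module.finrank A N) → A) := (Module.finBasis A N).equivFun
  have hr : 0 < Module.finrank A N := Module.finrank_pos
  set r := Module.finrank A N
  have hcomm : SMulCommClass R A N := inferInstance
  let ρ : R →ₐ[A] Module.End A (Fin r → A) :=
    ((e.conjAlgEquiv A : Module.End A N ≃ₐ[A] Module.End A (Fin r → A)) :
      Module.End A N →ₐ[A] Module.End A (Fin r → A)).comp (Algebra.lsmul A A N)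
  refine ⟨r, ρ, hr, ?_⟩
  let _ : Module R (Fin r → A) := actionModule ρ
  have hsm : ∀ (x : R) (v : Fin r → A), x • v = ρ x v := fun _ _ => rfl
  have htower : IsScalarTower A R (Fin r → A) := by
    refine ⟨fun a x v => ?_⟩
    rw [hsm, hsm, map_smul, LinearMap.smul_apply]
  have hnt : Nontrivial (Fin r → A) := e.symm.toEquiv.nontrivial
  exact isSmallCM_of_projective hmax hreg (Fin r → A)

theorem result {A R S : Type u}
    [CommRing A] [IsDomain A] [IsLocalRing A] [IsNoetherianRing A]
    [CommRing R] [IsDomain R] [IsLocalRing R] [Algebra A R] [Module.Finite A R]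
    [CommRing S] [IsLocalRing S] [Algebra A S] [Algebra R S] [IsScalarTower A R S]
    [Module.Finite R S]
    (hinj : Function.Injective (algebraMap A S))
    {d : ℕ} (y : Fin d → A) (z : A)
    -- `y_0, …, y_{d-1}, z` is a regular system of parameters of `A`
    (hmax : Ideal.span (Set.range y ∪ {z}) = maximalIdeal A)
    (hy : ∀ i : Fin d, ∀ a : A, y i * a ∈ Ideal.span {x : A | ∃ j : Fin d, j < i ∧ y j = x} →
      a ∈ Ideal.span {x : A | ∃ j : Fin d, j < i ∧ y j = x})
    (hz : ∀ a : A, z * a ∈ Ideal.span (Set.range y) → a ∈ Ideal.span (Set.range y))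
    -- `y_0, …, y_{d-1}` is a regular sequence on `S` (depth at least `dim - 1`)
    (hdepth : ∀ i : Fin d, ∀ s : S,
      algebraMap A S (y i) * s ∈ Ideal.span {x : S | ∃ j : Fin d, j < i ∧ algebraMap A S (y j) = x} →
        s ∈ Ideal.span {x : S | ∃ j : Fin d, j < i ∧ algebraMap A S (y j) = x})
    -- the socle of `S / (y_0, …, y_{d-1})` is generated by one element `e` (type at most one)
    (htype : ∃ e : S,
      (∀ t ∈ maximalIdeal S, t * e ∈ Ideal.span (Set.range fun j => algebraMap A S (y j))) ∧
      ∀ s : S, (∀ t ∈ maximalIdeal S, t * s ∈ Ideal.span (Set.range fun j => algebraMap A S (y j))) →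
        ∃ c : S, s - c * e ∈ Ideal.span (Set.range fun j => algebraMap A S (y j))) :
    -- `R` acts `A`-linearly on `A ^ r`, `r > 0`, which becomes a small Cohen–Macaulay `R`-module
    ∃ (r : ℕ) (ρ : R →ₐ[A] Module.End A (Fin r → A)), 0 < r ∧
      letI := actionModule ρ
      Module.Finite R (Fin r → A) ∧ ∃ xs : List R, (∀ x ∈ xs, x ∈ maximalIdeal R) ∧
        (xs.length : WithBot ℕ∞) = ringKrullDim R ∧ IsRegular (Fin r → A) xs := by
  have hfinS : Module.Finite A S := Module.Finite.trans R S
  set J : Ideal S := Ideal.span (Set.range fun j => algebraMap A S (y j)) with hJ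
  have hJl : Ideal.ofList ((List.ofFn y).map (algebraMap A S)) = J := ofFn_full y
  -- the regular system of parameters as a list
  have hmax' : Ideal.ofList (List.ofFn y ++ [z]) = maximalIdeal A := by
    rw [← hmax]
    unfold Ideal.ofList
    congr 1
    ext x
    simp only [List.mem_append, List.mem_ofFn, List.mem_singleton, Set.mem_ofPred_eq, Set.mem_union,
      Set.mem_range, Set.mem_singleton_iff]
  have hreg : IsWeaklyRegular A (List.ofFn y ++ [z]) := by
    rw [isWeaklyRegular_append_iff, isWeaklyRegular_singleton_iff]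
    refine ⟨weaklyRegular_ofFn y hy, ?_⟩
    rw [isSMulRegular_quotient_iff_mem_of_smul_mem]
    intro a ha
    rw [mem_smul_top_iff, ofFn_full] at ha ⊢
    exact hz a ha
  have hS : IsWeaklyRegular S (List.ofFn y) := weaklyRegular_ofFn y hdepth
  -- the socle
  obtain ⟨e, he, hgen⟩ := htype
  by_cases heJ : e ∈ J
  · have h0 : Subsingleton (Submodule.torsionBySet S
      (S ⧸ Ideal.ofList ((List.ofFn y).map (algebraMap A S))) (maximalIdeal S : Set S)) := by
      rw [hJl]
      refine subsingleton_of_forall_eq 0 ?_
      rintro ⟨q, hq⟩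
      obtain ⟨s, rfl⟩ := Ideal.Quotient.mk_surjective q
      rw [Submodule.mem_torsionBySet_iff] at hq
      obtain ⟨c, hc⟩ := hgen s fun t ht => by
        have h1 := hq ⟨t, ht⟩
        rw [← Ideal.Quotient.eq_zero_iff_mem, map_mul]
        exact h1
      have h2 : s ∈ J := by
        have := J.add_mem hc (J.mul_mem_left c heJ)
        rwa [sub_add_cancel] at this
      ext
      exact Ideal.Quotient.eq_zero_iff_mem.2 h2
    have hfree : Module.Free A S := free_of_socle_eq_zero hmax' hS h0
    exact model_of_module hmax' hreg S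
  · have h1 : IsSimpleModule S (Submodule.torsionBySet S
      (S ⧸ Ideal.ofList ((List.ofFn y).map (algebraMap A S))) (maximalIdeal S : Set S)) := by
      rw [hJl]
      have hemem : Ideal.Quotient.mk J e ∈
          Submodule.torsionBySet S (S ⧸ J) (maximalIdeal S : Set S) := by
        rw [Submodule.mem_torsionBySet_iff]
        rintro ⟨t, ht⟩
        have h2 := Ideal.Quotient.eq_zero_iff_mem.2 (he t ht)
        rw [map_mul] at h2
        exact h2
      have hgen' : ∀ x : Submodule.torsionBySet S (S ⧸ J) (maximalIdeal S : Set S),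
          ∃ c : S, x = c • (⟨Ideal.Quotient.mk J e, hemem⟩ :
            Submodule.torsionBySet S (S ⧸ J) (maximalIdeal S : Set S)) := by
        rintro ⟨q, hq⟩
        obtain ⟨s, rfl⟩ := Ideal.Quotient.mk_surjective q
        rw [Submodule.mem_torsionBySet_iff] at hq
        obtain ⟨c, hc⟩ := hgen s fun t ht => by
          have h1 := hq ⟨t, ht⟩
          rw [← Ideal.Quotient.eq_zero_iff_mem, map_mul]
          exact h1
        refine ⟨c, ?_⟩
        ext
        have h3 := (Ideal.Quotient.mk_eq_mk_iff_sub_mem (I := J) _ _).2 hc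
        rw [map_mul] at h3
        exact h3
      rw [isSimpleModule_iff_toSpanSingleton_surjective]
      refine ⟨⟨⟨Ideal.Quotient.mk J e, hemem⟩, 0, ?_⟩, ?_⟩
      · intro h
        exact heJ (Ideal.Quotient.eq_zero_iff_mem.1 (congrArg Subtype.val h))
      · intro x hx w
        obtain ⟨c, rfl⟩ := hgen' x
        obtain ⟨c', rfl⟩ := hgen' w
        have hu : IsUnit c := by
          by_contra hc
          refine hx ?_
          ext
          have h2 := Ideal.Quotient.eq_zero_iff_mem.2
            (he c ((IsLocalRing.mem_maximalIdeal c).2 hc))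
          rw [map_mul] at h2
          exact h2
        obtain ⟨v, rfl⟩ := hu
        refine ⟨c' * ((v⁻¹ : Sˣ) : S), ?_⟩
        rw [LinearMap.toSpanSingleton_apply, smul_smul, mul_assoc, Units.inv_mul, mul_one]
    obtain ⟨w, hproj, hfin, hnt⟩ := exists_module hinj hmax' hreg hS h1
    let modR : Module R (NSub w) := Module.compHom (NSub w) (algebraMap R S)
    have hsmul : ∀ (r : R) (x : NSub w), r • x = algebraMap R S r • x := fun _ _ => rfl
    have htower : IsScalarTower A R (NSub w) := by
      refine ⟨fun a r x => ?_⟩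
      rw [hsmul, hsmul, Algebra.smul_def, map_mul, ← IsScalarTower.algebraMap_apply, mul_smul,
        algebraMap_smul]
    exact model_of_module hmax' hreg (NSub w)

end Vale.Agent.Results.P190.MatrixModel
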