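import Vale.Agent.Lib.P190.Defs
import Vale.Agent.Lib.P190.SmallCM

/-!
# P190: small Cohen–Macaulay modules for local domains admitting an extension of type at most one
and depth at least `dim - 1`

`A` is a regular local ring (its maximal ideal is generated by the regular sequence
`y₁, …, y_{d-1}, z`), `R` is a local domain module-finite over `A` (by Cohen's structure theorem
every complete local domain is of this form), and `S` is a commutative local `R`-algebra, finite as
an `R`-module, with `A → S` injective (for example `S = R`).  Assume that `y₁, …, y_{d-1}` is
`S`-regular (depth of `S` at least `d - 1`) and that the socle of `S / (y₁, …, y_{d-1}) S` has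
length at most one (type at most one).  Then `R` has a small Cohen–Macaulay module.

If the socle is zero, `S` itself is Cohen–Macaulay.  Otherwise the module is
`N = {(s, φ) : s ∈ S, φ ∈ Hom_A (S, Frac A), φ(t) = w(s t) mod A for all t}` for a
suitable `A`-linear map `w : S → Frac A / A`; it is shown to be a finite free `A`-module.
-/

namespace Vale.Agent.Results.P190.TypeOne

open IsLocalRing RingTheory.Sequence Vale.Agent.P190

universe u

theorem result {A R S : Type u}
    [CommRing A] [IsDomain A] [IsLocalRing A] [IsNoetherianRing A]
    [CommRing R] [IsDomain R] [IsLocalRing R] [Algebra A R] [Module.Finite A R]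
    [CommRing S] [IsLocalRing S] [Algebra A S] [Algebra R S] [IsScalarTower A R S]
    [Module.Finite R S]
    (hinj : Function.Injective (algebraMap A S))
    (ys : List A) (z : A)
    (hmax : Ideal.ofList (ys ++ [z]) = maximalIdeal A)
    (hreg : IsRegular A (ys ++ [z]))
    (hdepth : IsWeaklyRegular S ys)
    (htype : Module.length S (Submodule.torsionBySet S
      (S ⧸ Ideal.ofList (ys.map (algebraMap A S))) (maximalIdeal S : Set S)) ≤ 1) :
    ∃ (N : Type u) (_ : AddCommGroup N) (_ : Module R N), IsSmallCohenMacaulay R N := by
  have hfinS : Module.Finite A S := Module.Finite.trans R S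
  rcases le_iff_lt_or_eq.1 htype with hlt | heq
  · have h0 : Subsingleton (Submodule.torsionBySet S
      (S ⧸ Ideal.ofList (ys.map (algebraMap A S))) (maximalIdeal S : Set S)) := by
      rw [← Module.length_eq_zero_iff (R := S)]
      exact Order.lt_one_iff.1 hlt
    have hfree : Module.Free A S := free_of_socle_eq_zero hmax hdepth h0
    exact ⟨S, inferInstance, inferInstance,
      isSmallCM_of_projective hmax hreg.toIsWeaklyRegular _⟩
  · have h1 := Module.length_eq_one_iff.1 heq
    obtain ⟨w, hproj, hfin, hnt⟩ := exists_module hinj hmax hreg.toIsWeaklyRegular hdepth h1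
    let modR : Module R (NSub w) := Module.compHom (NSub w) (algebraMap R S)
    have hsmul : ∀ (r : R) (x : NSub w), r • x = algebraMap R S r • x := fun _ _ => rfl
    have htower : IsScalarTower A R (NSub w) := by
      refine ⟨fun a r x => ?_⟩
      rw [hsmul, hsmul, Algebra.smul_def, map_mul, ← IsScalarTower.algebraMap_apply, mul_smul,
        algebraMap_smul]
    exact ⟨NSub w, inferInstance, modR, isSmallCM_of_projective hmax hreg.toIsWeaklyRegular _⟩

end Vale.Agent.Results.P190.TypeOne
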